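import Vale.Agent.P154.Q4.Coord

/-!
Sums over the symmetric group on four points, as polynomials in the six parameters.
-/

namespace Vale.Agent.P154.Q4

open Finset

/-- A permutation of four points. -/
def pg0 : Equiv.Perm (Fin 4) := ⟨![0, 1, 2, 3], ![0, 1, 2, 3], by decide, by decide⟩

/-- A permutation of four points. -/
def pg1 : Equiv.Perm (Fin 4) := ⟨![0, 1, 3, 2], ![0, 1, 3, 2], by decide, by decide⟩

/-- A permutation of four points. -/
def pg2 : Equiv.Perm (Fin 4) := ⟨![0, 2, 1, 3], ![0, 2, 1, 3], by decide, by decide⟩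

/-- A permutation of four points. -/
def pg3 : Equiv.Perm (Fin 4) := ⟨![0, 2, 3, 1], ![0, 3, 1, 2], by decide, by decide⟩

/-- A permutation of four points. -/
def pg4 : Equiv.Perm (Fin 4) := ⟨![0, 3, 1, 2], ![0, 2, 3, 1], by decide, by decide⟩

/-- A permutation of four points. -/
def pg5 : Equiv.Perm (Fin 4) := ⟨![0, 3, 2, 1], ![0, 3, 2, 1], by decide, by decide⟩

/-- A permutation of four points. -/
def pg6 : Equiv.Perm (Fin 4) := ⟨![1, 0, 2, 3], ![1, 0, 2, 3], by decide, by decide⟩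

/-- A permutation of four points. -/
def pg7 : Equiv.Perm (Fin 4) := ⟨![1, 0, 3, 2], ![1, 0, 3, 2], by decide, by decide⟩

/-- A permutation of four points. -/
def pg8 : Equiv.Perm (Fin 4) := ⟨![1, 2, 0, 3], ![2, 0, 1, 3], by decide, by decide⟩

/-- A permutation of four points. -/
def pg9 : Equiv.Perm (Fin 4) := ⟨![1, 2, 3, 0], ![3, 0, 1, 2], by decide, by decide⟩

/-- A permutation of four points. -/
def pg10 : Equiv.Perm (Fin 4) := ⟨![1, 3, 0, 2], ![2, 0, 3, 1], by decide, by decide⟩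

/-- A permutation of four points. -/
def pg11 : Equiv.Perm (Fin 4) := ⟨![1, 3, 2, 0], ![3, 0, 2, 1], by decide, by decide⟩

/-- A permutation of four points. -/
def pg12 : Equiv.Perm (Fin 4) := ⟨![2, 0, 1, 3], ![1, 2, 0, 3], by decide, by decide⟩

/-- A permutation of four points. -/
def pg13 : Equiv.Perm (Fin 4) := ⟨![2, 0, 3, 1], ![1, 3, 0, 2], by decide, by decide⟩

/-- A permutation of four points. -/
def pg14 : Equiv.Perm (Fin 4) := ⟨![2, 1, 0, 3], ![2, 1, 0, 3], by decide, by decide⟩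

/-- A permutation of four points. -/
def pg15 : Equiv.Perm (Fin 4) := ⟨![2, 1, 3, 0], ![3, 1, 0, 2], by decide, by decide⟩

/-- A permutation of four points. -/
def pg16 : Equiv.Perm (Fin 4) := ⟨![2, 3, 0, 1], ![2, 3, 0, 1], by decide, by decide⟩

/-- A permutation of four points. -/
def pg17 : Equiv.Perm (Fin 4) := ⟨![2, 3, 1, 0], ![3, 2, 0, 1], by decide, by decide⟩

/-- A permutation of four points. -/
def pg18 : Equiv.Perm (Fin 4) := ⟨![3, 0, 1, 2], ![1, 2, 3, 0], by decide, by decide⟩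

/-- A permutation of four points. -/
def pg19 : Equiv.Perm (Fin 4) := ⟨![3, 0, 2, 1], ![1, 3, 2, 0], by decide, by decide⟩

/-- A permutation of four points. -/
def pg20 : Equiv.Perm (Fin 4) := ⟨![3, 1, 0, 2], ![2, 1, 3, 0], by decide, by decide⟩

/-- A permutation of four points. -/
def pg21 : Equiv.Perm (Fin 4) := ⟨![3, 1, 2, 0], ![3, 1, 2, 0], by decide, by decide⟩

/-- A permutation of four points. -/
def pg22 : Equiv.Perm (Fin 4) := ⟨![3, 2, 0, 1], ![2, 3, 1, 0], by decide, by decide⟩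

/-- A permutation of four points. -/
def pg23 : Equiv.Perm (Fin 4) := ⟨![3, 2, 1, 0], ![3, 2, 1, 0], by decide, by decide⟩

/-- All permutations of four points. -/
def permList : List (Equiv.Perm (Fin 4)) :=
  [pg0, pg1, pg2, pg3, pg4, pg5, pg6, pg7, pg8, pg9, pg10, pg11, pg12, pg13, pg14, pg15, pg16, pg17, pg18, pg19, pg20, pg21, pg22, pg23]

theorem permList_nodup : permList.Nodup := by decide +kernel

theorem mem_permList (g : Equiv.Perm (Fin 4)) : g ∈ permList := by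
  revert g
  decide +kernel

/-- A sum over the permutations as a sum over the explicit list. -/
theorem sum_perm (f : Equiv.Perm (Fin 4) → ℝ) : ∑ g, f g = (permList.map f).sum := by
  have h : (Finset.univ : Finset (Equiv.Perm (Fin 4))) = permList.toFinset := by
    ext g
    simp [mem_permList g]
  rw [h, List.sum_toFinset f permList_nodup]

/-- The six parameters of two vectors as a point. -/
def ptab (a b : V3) : Pt := ⟨a.a1, a.a2, a.a3, b.a1, b.a2, b.a3⟩

/-- The first mean one vector, coordinatewise, as polynomials. -/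
def uA : Fin 4 → Poly
  | 0 => [(⟨0,0,0,0,0,0⟩, 1), (⟨0,0,1,0,0,0⟩, 1), (⟨0,1,0,0,0,0⟩, 1), (⟨1,0,0,0,0,0⟩, 1)]
  | 1 => [(⟨0,0,0,0,0,0⟩, 1), (⟨0,0,1,0,0,0⟩, -1), (⟨0,1,0,0,0,0⟩, -1), (⟨1,0,0,0,0,0⟩, 1)]
  | 2 => [(⟨0,0,0,0,0,0⟩, 1), (⟨0,0,1,0,0,0⟩, -1), (⟨0,1,0,0,0,0⟩, 1), (⟨1,0,0,0,0,0⟩, -1)]
  | 3 => [(⟨0,0,0,0,0,0⟩, 1), (⟨0,0,1,0,0,0⟩, 1), (⟨0,1,0,0,0,0⟩, -1), (⟨1,0,0,0,0,0⟩, -1)]

/-- The second mean one vector, coordinatewise, as polynomials. -/
def vB : Fin 4 → Poly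
  | 0 => [(⟨0,0,0,0,0,0⟩, 1), (⟨0,0,0,0,0,1⟩, 1), (⟨0,0,0,0,1,0⟩, 1), (⟨0,0,0,1,0,0⟩, 1)]
  | 1 => [(⟨0,0,0,0,0,0⟩, 1), (⟨0,0,0,0,0,1⟩, -1), (⟨0,0,0,0,1,0⟩, -1), (⟨0,0,0,1,0,0⟩, 1)]
  | 2 => [(⟨0,0,0,0,0,0⟩, 1), (⟨0,0,0,0,0,1⟩, -1), (⟨0,0,0,0,1,0⟩, 1), (⟨0,0,0,1,0,0⟩, -1)]
  | 3 => [(⟨0,0,0,0,0,0⟩, 1), (⟨0,0,0,0,0,1⟩, 1), (⟨0,0,0,0,1,0⟩, -1), (⟨0,0,0,1,0,0⟩, -1)]

theorem eval_uA (a b : V3) (i : Fin 4) : Poly.eval (uA i) (ptab a b) = vecOf a i := by
  fin_cases i <;> simp [uA, vecOf, ptab, Mono.eval] <;> ring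

theorem eval_vB (a b : V3) (i : Fin 4) : Poly.eval (vB i) (ptab a b) = vecOf b i := by
  fin_cases i <;> simp [vB, vecOf, ptab, Mono.eval] <;> ring

/-- The coordinate of the product vector. -/
def pP (g : Equiv.Perm (Fin 4)) (i : Fin 4) : Poly := Poly.mul (uA i) (vB (g i))

theorem eval_pP (a b : V3) (g : Equiv.Perm (Fin 4)) (i : Fin 4) :
    Poly.eval (pP g i) (ptab a b) = pv (vecOf a) (vecOf b) g i := by
  simp [pP, eval_uA, eval_vB, pv]

/-- Sum of the coordinates of the product vector, four times its mass. -/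
def zP (g : Equiv.Perm (Fin 4)) : Poly :=
  Poly.add (Poly.add (pP g 0) (pP g 1)) (Poly.add (pP g 2) (pP g 3))

theorem eval_zP (a b : V3) (g : Equiv.Perm (Fin 4)) :
    Poly.eval (zP g) (ptab a b) = 4 * mass (pv (vecOf a) (vecOf b) g) := by
  simp [zP, eval_pP, mass, Fin.sum_univ_four]
  ring

/-- Four times the excess of the mass of the product vector. -/
def eP (g : Equiv.Perm (Fin 4)) : Poly := Poly.add (zP g) [(⟨0,0,0,0,0,0⟩, -4)]

theorem eval_eP (a b : V3) (g : Equiv.Perm (Fin 4)) :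
    Poly.eval (eP g) (ptab a b) = 4 * (mass (pv (vecOf a) (vecOf b) g) - 1) := by
  simp [eP, eval_zP, Mono.eval]
  ring

/-- Sum of squares of the coordinates of the product vector. -/
def sqP (g : Equiv.Perm (Fin 4)) : Poly :=
  Poly.add (Poly.add (Poly.mul (pP g 0) (pP g 0)) (Poly.mul (pP g 1) (pP g 1)))
    (Poly.add (Poly.mul (pP g 2) (pP g 2)) (Poly.mul (pP g 3) (pP g 3)))

theorem eval_sqP (a b : V3) (g : Equiv.Perm (Fin 4)) :
    Poly.eval (sqP g) (ptab a b) = ∑ i, (pv (vecOf a) (vecOf b) g i) ^ 2 := by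
  simp [sqP, eval_pP, Fin.sum_univ_four]
  ring

/-- The polynomial `(sum p)^2 - sum p^2`, twelve times `W`. -/
def wP (g : Equiv.Perm (Fin 4)) : Poly :=
  Poly.add (Poly.mul (zP g) (zP g)) (Poly.smul (-1) (sqP g))

theorem eval_wP (a b : V3) (g : Equiv.Perm (Fin 4)) :
    Poly.eval (wP g) (ptab a b)
      = (4 * mass (pv (vecOf a) (vecOf b) g)) ^ 2 - ∑ i, (pv (vecOf a) (vecOf b) g i) ^ 2 := by
  simp [wP, eval_zP, eval_sqP]
  ring

/-- Evaluation of a univariate integer polynomial at a polynomial, by Horner. -/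
def horner (E : Poly) : List Int → Poly
  | [] => []
  | c :: cs => Poly.add [(⟨0,0,0,0,0,0⟩, c)] (Poly.mul E (horner E cs))

/-- Value of a univariate integer polynomial. -/
noncomputable def hornerR (e : ℝ) : List Int → ℝ
  | [] => 0
  | c :: cs => (c : ℝ) + e * hornerR e cs

theorem eval_horner (E : Poly) (cs : List Int) (p : Pt) :
    Poly.eval (horner E cs) p = hornerR (Poly.eval E p) cs := by
  induction cs with
  | nil => rfl
  | cons c cs ih =>
    simp [horner, hornerR, ih, Mono.eval]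

/-- Powers of a polynomial. -/
def ppow (P : Poly) : Nat → Poly
  | 0 => [(⟨0,0,0,0,0,0⟩, 1)]
  | n + 1 => Poly.mul (ppow P n) P

theorem eval_ppow (P : Poly) (n : Nat) (p : Pt) : Poly.eval (ppow P n) p = (Poly.eval P p) ^ n := by
  induction n with
  | zero => simp [ppow, Mono.eval]
  | succ n ih => simp [ppow, ih, pow_succ]

/-- The invariants as polynomials in the parameters. -/
def xAP : Poly := [(⟨0,0,2,0,0,0⟩, 1), (⟨0,2,0,0,0,0⟩, 1), (⟨2,0,0,0,0,0⟩, 1)]
/-- The invariant `τ` of the first vector. -/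
def tAP : Poly := [(⟨1,1,1,0,0,0⟩, 1)]
/-- The invariant `g` of the first vector. -/
def gAP : Poly := [(⟨0,2,2,0,0,0⟩, 1), (⟨2,0,2,0,0,0⟩, 1), (⟨2,2,0,0,0,0⟩, 1)]
/-- The invariant `x` of the second vector. -/
def xBP : Poly := [(⟨0,0,0,0,0,2⟩, 1), (⟨0,0,0,0,2,0⟩, 1), (⟨0,0,0,2,0,0⟩, 1)]
/-- The invariant `τ` of the second vector. -/
def tBP : Poly := [(⟨0,0,0,1,1,1⟩, 1)]
/-- The invariant `g` of the second vector. -/
def gBP : Poly := [(⟨0,0,0,0,2,2⟩, 1), (⟨0,0,0,2,0,2⟩, 1), (⟨0,0,0,2,2,0⟩, 1)]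

theorem eval_xAP (a b : V3) : Poly.eval xAP (ptab a b) = a.x := by
  simp [xAP, ptab, Mono.eval, V3.x]; ring
theorem eval_tAP (a b : V3) : Poly.eval tAP (ptab a b) = a.t := by
  simp [tAP, ptab, Mono.eval, V3.t]
theorem eval_gAP (a b : V3) : Poly.eval gAP (ptab a b) = a.g := by
  simp [gAP, ptab, Mono.eval, V3.g]; ring
theorem eval_xBP (a b : V3) : Poly.eval xBP (ptab a b) = b.x := by
  simp [xBP, ptab, Mono.eval, V3.x]; ring
theorem eval_tBP (a b : V3) : Poly.eval tBP (ptab a b) = b.t := by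
  simp [tBP, ptab, Mono.eval, V3.t]
theorem eval_gBP (a b : V3) : Poly.eval gBP (ptab a b) = b.g := by
  simp [gBP, ptab, Mono.eval, V3.g]; ring

/-- One term of a polynomial in the invariants, expressed in the parameters. -/
def substTerm (t : Mono × Int) : Poly :=
  Poly.smul t.2 (Poly.mul (Poly.mul (Poly.mul (ppow xAP t.1.e0) (ppow tAP t.1.e1)) (ppow gAP t.1.e2))
    (Poly.mul (Poly.mul (ppow xBP t.1.e3) (ppow tBP t.1.e4)) (ppow gBP t.1.e5)))

/-- A polynomial in the invariants, expressed in the parameters. -/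
def substInv (P : Poly) : Poly := Poly.sum (P.map substTerm)

theorem eval_substTerm (t : Mono × Int) (a b : V3) :
    Poly.eval (substTerm t) (ptab a b) = (t.2 : ℝ) * t.1.eval (pt a b) := by
  simp only [substTerm, Poly.eval_smul, Poly.eval_mul, eval_ppow, eval_xAP, eval_tAP, eval_gAP,
    eval_xBP, eval_tBP, eval_gBP, Mono.eval, pt]
  ring

theorem eval_substInv (P : Poly) (a b : V3) :
    Poly.eval (substInv P) (ptab a b) = Poly.eval P (pt a b) := by
  unfold substInv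
  rw [Poly.eval_sum]
  induction P with
  | nil => simp [Poly.evalList]
  | cons t P ih =>
    have e : Poly.evalList ((t :: P).map substTerm) (ptab a b)
        = Poly.eval (substTerm t) (ptab a b) + Poly.evalList (P.map substTerm) (ptab a b) := by
      simp [Poly.evalList]
    rw [e, ih, eval_substTerm, Poly.eval_cons]

/-- Sums over the permutations of values of polynomials. -/
theorem sum_perm_eval (T : Equiv.Perm (Fin 4) → Poly) (q : Pt) :
    ∑ g, Poly.eval (T g) q = Poly.eval (Poly.sum (permList.map T)) q := by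
  rw [sum_perm, Poly.eval_sum]
  unfold Poly.evalList
  rw [List.map_map]
  rfl

/-- The identity behind a sum over the permutations: the sum of `T g` equals the invariant polynomial. -/
def avgOK (T : Equiv.Perm (Fin 4) → Poly) (P : Poly) : Bool :=
  Poly.isZero (Poly.add (Poly.sum (permList.map T)) (Poly.smul (-1) (substInv P)))

theorem sum_of_avgOK {T : Equiv.Perm (Fin 4) → Poly} {P : Poly} (h : avgOK T P = true) (a b : V3) :
    ∑ g, Poly.eval (T g) (ptab a b) = Poly.eval P (pt a b) := by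
  have h0 := Poly.eval_of_isZero h (ptab a b)
  rw [Poly.eval_add, Poly.eval_smul, eval_substInv] at h0
  rw [sum_perm_eval]
  push_cast at h0
  linarith

end Vale.Agent.P154.Q4
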