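import Vale.Agent.P154.Q4.AvgFast

/-!
Sums over the permutations for the closure estimate.
-/

namespace Vale.Agent.P154.Q4

/-- Four times the coordinate `p i - Z u i`. -/
def aiP (g : Equiv.Perm (Fin 4)) (i : Fin 4) : Poly :=
  Poly.add (Poly.smul 4 (pP g i)) (Poly.smul (-1) (Poly.mul (zP g) (uA i)))

/-- Four times the coordinate `p i - Z`. -/
def ciP (g : Equiv.Perm (Fin 4)) (i : Fin 4) : Poly :=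
  Poly.add (Poly.smul 4 (pP g i)) (Poly.smul (-1) (zP g))

/-- A sum of four squares. -/
def sq4 (f : Fin 4 → Poly) : Poly :=
  Poly.add (Poly.add (Poly.mul (f 0) (f 0)) (Poly.mul (f 1) (f 1)))
    (Poly.add (Poly.mul (f 2) (f 2)) (Poly.mul (f 3) (f 3)))

theorem eval_sq4 (f : Fin 4 → Poly) (q : Pt) :
    Poly.eval (sq4 f) q = ∑ i, (Poly.eval (f i) q) ^ 2 := by
  simp [sq4, Fin.sum_univ_four]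
  ring

/-- Horner coefficients of `4096 L(E / 4)`, nodes `1, 1, 2`. -/
def lc2 : List Int := [4096, -1024, 256, -64, 12, -1]

/-- Horner coefficients of `20736 L(E / 4)`, nodes `1, 3 / 2, 3`. -/
def lc3 : List Int := [20736, -5184, 1232, -228, 24, -1]

/-- Horner coefficients of `30965760 T(E / 4)`. -/
def tc3 : List Int := [0, 7741440, 967680, -80640, 10080, -1512, 140, -5]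

/-- Sum over the permutations with the first mode and nodes `1, 1, 2`. -/
def abS2 : Poly :=
  [(⟨0,0,0,1,0,0⟩, 6291456), (⟨0,0,1,0,0,1⟩, -46137344), (⟨0,0,1,0,1,0⟩, 50331648), (⟨0,0,1,1,0,1⟩, 15728640), (⟨0,0,1,1,1,0⟩, -33554432), (⟨0,0,1,2,0,0⟩, 12582912), (⟨0,0,1,3,0,0⟩, -3145728), (⟨0,0,2,0,1,1⟩, 92274688), (⟨0,0,2,2,1,0⟩, -25165824), (⟨0,1,0,0,0,1⟩, 50331648), (⟨0,1,0,0,1,0⟩, 37748736), (⟨0,1,0,1,0,0⟩, -25165824), (⟨0,1,0,1,1,0⟩, -37748736), (⟨0,1,1,0,1,1⟩, 287309824), (⟨0,1,1,0,2,0⟩, -528482304), (⟨0,1,1,1,0,1⟩, -37748736), (⟨0,1,1,2,1,0⟩, -85983232), (⟨0,1,1,3,0,0⟩, 12582912), (⟨0,2,0,0,1,1⟩, -176160768), (⟨0,2,0,0,2,0⟩, -842268672), (⟨0,2,0,1,0,1⟩, 110886912), (⟨0,2,0,1,1,0⟩, 201326592), (⟨0,2,0,2,1,0⟩, 25165824), (⟨0,2,0,3,0,0⟩,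 -14155776), (⟨1,0,0,0,1,0⟩, -25165824), (⟨1,0,0,2,0,0⟩, 2097152), (⟨1,0,1,0,0,1⟩, 20971520), (⟨1,0,1,0,1,1⟩, -12582912), (⟨1,0,1,0,2,0⟩, 110886912), (⟨1,0,1,1,0,1⟩, -49545216), (⟨1,0,1,1,1,0⟩, 33554432), (⟨1,0,1,2,0,0⟩, -4194304), (⟨1,0,1,2,1,0⟩, -4194304), (⟨1,0,1,3,0,0⟩, 11010048), (⟨1,1,0,0,0,1⟩, -33554432), (⟨1,1,0,0,1,0⟩, -37748736), (⟨1,1,0,0,2,0⟩, 150994944), (⟨1,1,0,1,0,1⟩, 25165824), (⟨1,1,0,1,1,0⟩, 29360128), (⟨1,1,0,2,0,0⟩, -8388608), (⟨1,1,0,2,1,0⟩, -10485760), (⟨1,1,1,0,1,1⟩, -161480704), (⟨1,1,1,2,1,0⟩, 44040192), (⟨1,2,0,0,1,1⟩, 67108864), (⟨1,2,0,0,2,0⟩, 544997376), (⟨1,2,0,1,0,1⟩, -49545216), (⟨1,2,0,2,1,0⟩, 50331648), (⟨1,2,0,3,0,0⟩, 4718592), (⟨2,0,0,0,0,1⟩, 12582912), (⟨2,0,0,1,0,0⟩, 2097152), (⟨2,0,0,1,0,1⟩,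 -3145728), (⟨2,0,0,1,1,0⟩, -8388608), (⟨2,0,0,2,0,0⟩, -4194304), (⟨2,0,0,3,0,0⟩, 1572864), (⟨2,0,1,0,1,1⟩, -25165824), (⟨2,0,1,0,2,0⟩, -49545216), (⟨2,0,1,1,0,1⟩, 25952256), (⟨2,0,1,2,1,0⟩, 12582912), (⟨2,0,1,3,0,0⟩, -4718592), (⟨2,1,0,0,1,1⟩, -85983232), (⟨2,1,0,0,2,0⟩, 75497472), (⟨2,1,0,1,0,1⟩, -12582912), (⟨2,1,0,1,1,0⟩, -41943040), (⟨2,1,0,2,1,0⟩, 32505856), (⟨2,1,0,3,0,0⟩, -6291456), (⟨3,0,0,0,0,1⟩, -4194304), (⟨3,0,0,0,1,1⟩, 4194304), (⟨3,0,0,0,2,0⟩, -14155776), (⟨3,0,0,1,0,1⟩, 11010048), (⟨3,0,0,2,0,0⟩, 2097152), (⟨3,0,0,2,1,0⟩, -2097152), (⟨3,0,0,3,0,0⟩, -3145728), (⟨3,1,0,0,1,1⟩, 44040192), (⟨3,1,0,2,1,0⟩, -22020096), (⟨4,0,0,0,2,0⟩, 4718592), (⟨4,0,0,1,0,1⟩, -4718592), (⟨4,0,0,3,0,0⟩, 1572864)]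

/-- Sum over the permutations with the first mode and nodes `1, 3 / 2, 3`. -/
def abS3 : Poly :=
  [(⟨0,0,0,1,0,0⟩, 31850496), (⟨0,0,1,0,0,1⟩, -222035968), (⟨0,0,1,0,1,0⟩, 254803968), (⟨0,0,1,1,0,1⟩, 31457280), (⟨0,0,1,1,1,0⟩, -119537664), (⟨0,0,1,2,0,0⟩, 60555264), (⟨0,0,1,3,0,0⟩, -6291456), (⟨0,0,2,0,1,1⟩, 92274688), (⟨0,0,2,2,1,0⟩, -25165824), (⟨0,1,0,0,0,1⟩, 242221056), (⟨0,1,0,0,1,0⟩, 191102976), (⟨0,1,0,1,0,0⟩, -127401984), (⟨0,1,0,1,1,0⟩, -134479872), (⟨0,1,1,0,1,1⟩, 287309824), (⟨0,1,1,0,2,0⟩, -1056964608), (⟨0,1,1,1,0,1⟩, -75497472), (⟨0,1,1,2,1,0⟩, -85983232), (⟨0,1,1,3,0,0⟩, 25165824), (⟨0,2,0,0,1,1⟩, -176160768), (⟨0,2,0,0,2,0⟩, -1684537344), (⟨0,2,0,1,0,1⟩, 221773824), (⟨0,2,0,1,1,0⟩, 717225984), (⟨0,2,0,2,1,0⟩,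 25165824), (⟨0,2,0,3,0,0⟩, -28311552), (⟨1,0,0,0,1,0⟩, -127401984), (⟨1,0,0,2,0,0⟩, 10092544), (⟨1,0,1,0,0,1⟩, 100925440), (⟨1,0,1,0,1,1⟩, -12582912), (⟨1,0,1,0,2,0⟩, 221773824), (⟨1,0,1,1,0,1⟩, -99090432), (⟨1,0,1,1,1,0⟩, 119537664), (⟨1,0,1,2,0,0⟩, -20185088), (⟨1,0,1,2,1,0⟩, -4194304), (⟨1,0,1,3,0,0⟩, 22020096), (⟨1,1,0,0,0,1⟩, -161480704), (⟨1,1,0,0,1,0⟩, -191102976), (⟨1,1,0,0,2,0⟩, 301989888), (⟨1,1,0,1,0,1⟩, 50331648), (⟨1,1,0,1,1,0⟩, 104595456), (⟨1,1,0,2,0,0⟩, -40370176), (⟨1,1,0,2,1,0⟩, -10485760), (⟨1,1,1,0,1,1⟩, -161480704), (⟨1,1,1,2,1,0⟩, 44040192), (⟨1,2,0,0,1,1⟩, 67108864), (⟨1,2,0,0,2,0⟩, 1089994752), (⟨1,2,0,1,0,1⟩, -99090432), (⟨1,2,0,2,1,0⟩, 50331648), (⟨1,2,0,3,0,0⟩, 9437184), (⟨2,0,0,0,0,1⟩, 60555264),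 (⟨2,0,0,1,0,0⟩, 10616832), (⟨2,0,0,1,0,1⟩, -6291456), (⟨2,0,0,1,1,0⟩, -29884416), (⟨2,0,0,2,0,0⟩, -20185088), (⟨2,0,0,3,0,0⟩, 3145728), (⟨2,0,1,0,1,1⟩, -25165824), (⟨2,0,1,0,2,0⟩, -99090432), (⟨2,0,1,1,0,1⟩, 51904512), (⟨2,0,1,2,1,0⟩, 12582912), (⟨2,0,1,3,0,0⟩, -9437184), (⟨2,1,0,0,1,1⟩, -85983232), (⟨2,1,0,0,2,0⟩, 150994944), (⟨2,1,0,1,0,1⟩, -25165824), (⟨2,1,0,1,1,0⟩, -149422080), (⟨2,1,0,2,1,0⟩, 32505856), (⟨2,1,0,3,0,0⟩, -12582912), (⟨3,0,0,0,0,1⟩, -20185088), (⟨3,0,0,0,1,1⟩, 4194304), (⟨3,0,0,0,2,0⟩, -28311552), (⟨3,0,0,1,0,1⟩, 22020096), (⟨3,0,0,2,0,0⟩, 10092544), (⟨3,0,0,2,1,0⟩, -2097152), (⟨3,0,0,3,0,0⟩, -6291456), (⟨3,1,0,0,1,1⟩, 44040192), (⟨3,1,0,2,1,0⟩, -22020096), (⟨4,0,0,0,2,0⟩, 9437184), (⟨4,0,0,1,0,1⟩, -9437184),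 (⟨4,0,0,3,0,0⟩, 3145728)]

/-- Sum over the permutations with the mode zero and nodes `1, 1, 2`. -/
def ccS2 : Poly :=
  [(⟨0,0,0,1,0,0⟩, 6291456), (⟨0,0,1,0,0,1⟩, -46137344), (⟨0,0,1,0,1,0⟩, 50331648), (⟨0,0,1,1,0,1⟩, 15728640), (⟨0,0,1,1,1,0⟩, -33554432), (⟨0,0,1,2,0,0⟩, 12582912), (⟨0,0,1,3,0,0⟩, -3145728), (⟨0,1,0,0,0,1⟩, 50331648), (⟨0,1,0,0,1,0⟩, 37748736), (⟨0,1,0,1,0,0⟩, -25165824), (⟨0,1,0,1,1,0⟩, -37748736), (⟨0,1,1,0,1,1⟩, -35651584), (⟨0,1,1,0,2,0⟩, -176160768), (⟨0,1,1,1,0,1⟩, -12582912), (⟨0,1,1,2,1,0⟩, 2097152), (⟨0,1,1,3,0,0⟩, 4194304), (⟨0,2,0,0,1,1⟩, -176160768), (⟨0,2,0,0,2,0⟩, -115605504), (⟨0,2,0,1,0,1⟩, 44826624), (⟨0,2,0,1,1,0⟩, 150994944), (⟨0,2,0,2,1,0⟩, 25165824), (⟨0,2,0,3,0,0⟩, -7864320), (⟨1,0,0,0,0,0⟩,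 6291456), (⟨1,0,0,0,1,0⟩, -25165824), (⟨1,0,0,2,0,0⟩, 2097152), (⟨1,0,1,0,0,1⟩, 15728640), (⟨1,0,1,0,1,1⟩, -12582912), (⟨1,0,1,0,2,0⟩, 44826624), (⟨1,0,1,1,0,1⟩, -14942208), (⟨1,0,1,1,1,0⟩, 25165824), (⟨1,0,1,2,0,0⟩, -3145728), (⟨1,0,1,2,1,0⟩, -4194304), (⟨1,0,1,3,0,0⟩, 4718592), (⟨1,1,0,0,0,1⟩, -33554432), (⟨1,1,0,0,1,0⟩, -37748736), (⟨1,1,0,0,2,0⟩, 150994944), (⟨1,1,0,1,0,1⟩, 25165824), (⟨1,1,0,1,1,0⟩, 8388608), (⟨1,1,0,2,0,0⟩, -8388608), (⟨1,1,0,2,1,0⟩, -10485760), (⟨2,0,0,0,0,1⟩, 12582912), (⟨2,0,0,1,0,0⟩, 2097152), (⟨2,0,0,1,0,1⟩, -3145728), (⟨2,0,0,1,1,0⟩, -8388608), (⟨2,0,0,2,0,0⟩, -4194304), (⟨2,0,0,3,0,0⟩, 1572864), (⟨2,1,0,0,1,1⟩, 2097152), (⟨2,1,0,0,2,0⟩, 25165824), (⟨2,1,0,1,0,1⟩, -4194304), (⟨2,1,0,1,1,0⟩, -10485760),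 (⟨2,1,0,2,1,0⟩, -11534336), (⟨2,1,0,3,0,0⟩, -2097152), (⟨3,0,0,0,0,1⟩, -3145728), (⟨3,0,0,0,1,1⟩, 4194304), (⟨3,0,0,0,2,0⟩, -7864320), (⟨3,0,0,1,0,1⟩, 4718592), (⟨3,0,0,2,0,0⟩, 1572864), (⟨3,0,0,2,1,0⟩, -2097152), (⟨3,0,0,3,0,0⟩, -1048576)]

/-- Sum over the permutations of the lower polynomial at the excess. -/
def etS : Poly :=
  [(⟨0,0,1,0,0,1⟩, 206438400), (⟨0,0,1,2,0,0⟩, -41287680), (⟨0,1,0,0,1,0⟩, -743178240), (⟨0,1,1,0,1,1⟩, -201850880), (⟨0,1,1,2,1,0⟩, 55050240), (⟨0,2,0,0,2,0⟩, 1589575680), (⟨0,2,0,1,0,1⟩, -144506880), (⟨0,2,0,3,0,0⟩, 13762560), (⟨1,0,0,1,0,0⟩, 123863040), (⟨1,0,1,0,2,0⟩, -144506880), (⟨1,0,1,1,0,1⟩, 75694080), (⟨1,0,1,3,0,0⟩, -13762560), (⟨1,1,0,1,1,0⟩, -247726080), (⟨2,0,0,0,0,1⟩, -41287680), (⟨2,0,0,2,0,0⟩,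 20643840), (⟨2,1,0,0,1,1⟩, 55050240), (⟨2,1,0,2,1,0⟩, -27525120), (⟨3,0,0,0,2,0⟩, 13762560), (⟨3,0,0,1,0,1⟩, -13762560), (⟨3,0,0,3,0,0⟩, 4587520)]

end Vale.Agent.P154.Q4
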